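import Vale.Agent.P197.Defs

/-! # P197 skeleton: exact statements (DO NOT IMPORT). -/

namespace Vale.Agent.P197.Skel

open Equiv Finset

variable {I : Type} [Fintype I] [DecidableEq I]
variable {S U : Type} [Fintype S] [DecidableEq S] [Fintype U] [DecidableEq U]

/-! ## [K] Kernel.lean -/

theorem E_comp (b : I → ℕ × ℕ) (x z : I → ℕ) (k : Perm I) :
    E b (fun p => x (k p)) (fun p => z (k p)) = ((Perm.sign k : ℤ) : ℚ) * E b x z := by
  sorry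

/-- if `(x,z) = b ∘ g` then `E b x z = sign g`. -/
theorem E_eq_sign {b : I → ℕ × ℕ} (hb : Function.Injective b) (x z : I → ℕ) (g : Perm I)
    (h : ∀ p, b (g p) = (x p, z p)) : E b x z = ((Perm.sign g : ℤ) : ℚ) := by
  sorry

theorem exists_perm_of_E_ne_zero {b : I → ℕ × ℕ} {x z : I → ℕ} (h : E b x z ≠ 0) :
    ∃ g : Perm I, ∀ p, b (g p) = (x p, z p) := by
  sorry

theorem E_sum_fst {b : I → ℕ × ℕ} {x z : I → ℕ} (h : E b x z ≠ 0) :
    ∑ p, x p = ∑ p, (b p).1 := by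
  sorry

theorem E_sum_snd {b : I → ℕ × ℕ} {x z : I → ℕ} (h : E b x z ≠ 0) :
    ∑ p, z p = ∑ p, (b p).2 := by
  sorry

/-- transpose symmetry -/
theorem E_transpose {a : ℕ} {b : I → ℕ × ℕ} (hb : IsStair a b) :
    ∃ s : ℚ, s ≠ 0 ∧ ∀ x z, E b z x = s * E b x z := by
  sorry

/-- one-element Garnir relation -/
theorem garnir {a : ℕ} {b : I → ℕ × ℕ} (hb : IsStair a b) (x z : I → ℕ) (p : I) (i : ℕ)
    (hi : i < z p) :
    E b x z = - ∑ q ∈ univ.filter (fun q => z q = i), E b x (fun r => z (swap p q r)) := by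
  sorry

theorem G_comm (b : I → ℕ × ℕ) (x x' : I → ℕ) : G b x x' = G b x' x := by
  sorry

theorem G_comp (b : I → ℕ × ℕ) (x x' : I → ℕ) (k : Perm I) :
    G b (fun p => x (k p)) (fun p => x' (k p)) = G b x x' := by
  sorry

/-- conjugation symmetry -/
theorem YS_symm {a : ℕ} {b : I → ℕ × ℕ} (hb : IsStair a b) :
    ∃ s : ℚ, s ≠ 0 ∧ ∀ ρ γ x y x' z : I → ℕ,
      YS ρ γ (fun u v => G b u x' * E b v z) x y =
        s * YS γ ρ (fun u v => G b u x * E b v y) x' z := by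
  sorry

theorem good_symm {a : ℕ} {ρ γ : I → ℕ} (h : Good a ρ γ) : Good a γ ρ := by
  sorry

theorem good_equiv {J : Type} [Fintype J] [DecidableEq J] {a : ℕ} (e : J ≃ I) {ρ γ : I → ℕ}
    (h : Good a (fun p => ρ (e p)) (fun p => γ (e p))) : Good a ρ γ := by
  sorry

/-! ## [W] Weight.lean : three uses -/

theorem eq_of_sum_eq {ι : Type} [DecidableEq ι] (A B : Finset ι) (w : ι → ℤ) (k : ℤ)
    (hcard : A.card = B.card) (hB : ∀ p ∈ B, w p < k) (hA : ∀ p, p ∉ B → k ≤ w p)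
    (hsum : ∑ p ∈ A, w p = ∑ p ∈ B, w p) : A = B := by
  sorry

/-! ## [SC] Schur.lean -/

theorem schur {a : ℕ} {b : I → ℕ × ℕ} (hb : IsStair a b) (Θ : (I → ℕ) → (I → ℕ) → ℚ)
    (hΘ : ∀ (k : Perm I) (x z : I → ℕ),
      Θ (fun p => x (k p)) (fun p => z (k p)) = ((Perm.sign k : ℤ) : ℚ) * Θ x z)
    (hs : ∀ x z, Θ x z ≠ 0 → ∑ p, (x p + z p) = ∑ p, ((b p).1 + (b p).2)) :
    ∀ x z, Θ x z = Θ (fun p => (b p).1) (fun p => (b p).2) * E b x z := by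
  sorry

theorem G_E {a : ℕ} {b : I → ℕ × ℕ} (hb : IsStair a b) :
    ∃ lam : ℚ, 0 < lam ∧ ∀ x z, ∑ h : Perm I,
      G b x (fun p => (b (h p)).1) * E b (fun p => (b (h p)).1) z = lam * E b x z := by
  sorry

/-! ## [BL] Block.lean -/

theorem glue_isStair {a : ℕ} {s : S → ℕ × ℕ} {m : U → ℕ × ℕ} (hs : IsStair a s)
    (hm : IsMu (a + 2) m) : IsStair (a + 2) (glue s m) := by
  sorry

theorem block (s : S → ℕ × ℕ) (m : U → ℕ × ℕ) (hm : ∀ p, (m p).2 < 2) (z₁ : S → ℕ) (w : U → ℕ)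
    (hw : ∀ p, w p < 2) (x : S ⊕ U → ℕ) :
    E (glue s m) x (Sum.elim (fun p => z₁ p + 2) w) =
      E s (fun p => x (Sum.inl p)) z₁ * E m (fun p => x (Sum.inr p)) w := by
  sorry

/-! ## [ST] Straight.lean -/

/-- antisymmetrizing `E (·, z)` over the column group of `w` in `U` lands in the span of the
`E (·, (z₁+2, w))`. -/
theorem straight {a : ℕ} {s : S → ℕ × ℕ} {m : U → ℕ × ℕ} (hs : IsStair a s)
    (hm : IsMu (a + 2) m) (w : U → ℕ) (g : Perm U) (hw : ∀ p, w p = (m (g p)).2)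
    (z : S ⊕ U → ℕ) :
    (fun x : S ⊕ U → ℕ => ∑ c : Perm U, if (∀ p, w (c p) = w p) then
        ((Perm.sign c : ℤ) : ℚ) * E (glue s m) (fun p => x (Equiv.sumCongr 1 c p)) z else 0) ∈
      Submodule.span ℚ (Set.range fun (z₁ : S → ℕ) (x : S ⊕ U → ℕ) =>
        E (glue s m) x (Sum.elim (fun p => z₁ p + 2) w)) := by
  sorry

/-! ## [CA] ClaimA.lean -/

theorem claimA {a : ℕ} {s : S → ℕ × ℕ} {m : U → ℕ × ℕ} (hs : IsStair a s)
    (hm : IsMu (a + 2) m) (w : U → ℕ) (hw : ∀ p, w p < 2) (x₁' : S → ℕ) :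
    ∃ κ : ℚ, ∀ x : S ⊕ U → ℕ,
      G s (fun p => x (Sum.inl p)) x₁' * E m (fun p => x (Sum.inr p)) w =
        κ * ∑ g : Perm U, E m (fun p => (m (g p)).1) w *
          G (glue s m) x (Sum.elim x₁' (fun p => (m (g p)).1)) := by
  sorry

/-! ## [ISO] Isolation.lean -/

theorem isolation (ρ₁ γ₁ x₁ y₁ : S → ℕ) (ρ₂ γ₂ x₂ y₂ : U → ℕ) (t : ℕ → ℕ) (k : ℕ)
    (hS : ∀ p, t (γ₁ p) ≤ ρ₁ p) (hU : ∀ p, ρ₂ p < t (γ₂ p))
    (hlow : ∀ p, x₁ p + y₁ p < k) (hhigh : ∀ p, k ≤ x₂ p + y₂ p)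
    (FS : (S → ℕ) → (S → ℕ) → ℚ) (FU : (U → ℕ) → (U → ℕ) → ℚ)
    (hF : ∀ u v, FS u v ≠ 0 → ∑ p, (u p + v p) = ∑ p, (x₁ p + y₁ p)) :
    YS (Sum.elim ρ₁ ρ₂) (Sum.elim γ₁ γ₂)
      (fun u v => FS (fun p => u (Sum.inl p)) (fun p => v (Sum.inl p)) *
        FU (fun p => u (Sum.inr p)) (fun p => v (Sum.inr p)))
      (Sum.elim x₁ x₂) (Sum.elim y₁ y₂) = YS ρ₁ γ₁ FS x₁ y₁ * YS ρ₂ γ₂ FU x₂ y₂ := by
  sorry

/-! ## [NUM] Numeric.lean -/

theorem numeric (a : ℕ) (ρ γ : I → ℕ) (hinj : Function.Injective (fun p => (ρ p, γ p)))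
    (hcard : 2 * Fintype.card I = (a + 2) * (a + 3)) :
    2 * a + 3 ≤ ∑ j ∈ univ.image γ, min 4 (univ.filter (fun p => γ p = j)).card ∨
    2 * a + 3 ≤ ∑ j ∈ univ.image ρ, min 4 (univ.filter (fun p => ρ p = j)).card := by
  sorry

theorem choose_t (ρ γ : I → ℕ) (hinj : Function.Injective (fun p => (ρ p, γ p))) (n : ℕ)
    (hn : n ≤ ∑ j ∈ univ.image γ, min 4 (univ.filter (fun p => γ p = j)).card) :
    ∃ t : ℕ → ℕ, (univ.filter (fun p => ρ p < t (γ p))).card = n ∧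
      ∀ j, (univ.filter (fun p => γ p = j ∧ ρ p < t j)).card ≤ 4 := by
  sorry

/-! ## [P] LemmaP.lean -/

theorem lemmaP (k : ℕ) (hk : 1 ≤ k) (hcard : Fintype.card U = 2 * k + 1) (ρ γ : U → ℕ)
    (hinj : Function.Injective (fun p => (ρ p, γ p)))
    (hcol : ∀ j, (univ.filter (fun p => γ p = j)).card ≤ 4) :
    ∃ m : U → ℕ × ℕ, IsMu (k + 1) m ∧ ∃ x y w z : U → ℕ,
      (∀ p, k ≤ x p + y p + 1) ∧ (∀ p, x p + y p < k + 1) ∧ (∀ p, w p < 2) ∧ (∀ p, z p < 2) ∧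
      YS ρ γ (fun u v => E m u w * E m v z) x y ≠ 0 := by
  sorry

/-! ## [ASM] Assembly.lean -/

theorem good_step (a : ℕ)
    (ih : ∀ (S : Type) [Fintype S] [DecidableEq S] (ρ γ : S → ℕ),
      2 * Fintype.card S = a * (a + 1) → Function.Injective (fun p => (ρ p, γ p)) → Good a ρ γ)
    (I : Type) [Fintype I] [DecidableEq I] (ρ γ : I → ℕ)
    (hcard : 2 * Fintype.card I = (a + 2) * (a + 3))
    (hinj : Function.Injective (fun p => (ρ p, γ p))) : Good (a + 2) ρ γ := by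
  sorry

theorem good_all (a : ℕ) : ∀ (I : Type) [Fintype I] [DecidableEq I] (ρ γ : I → ℕ),
    2 * Fintype.card I = a * (a + 1) → Function.Injective (fun p => (ρ p, γ p)) →
    Good a ρ γ := by
  sorry

end Vale.Agent.P197.Skel
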